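import Vale.Agent.P235.LL.Proc

/-! P235, LL: basic lemmas of the process half. -/

namespace Vale.Agent.P235.LL

open Vale.Agent.P235 Finset

section dto

variable {V : Type} {G : SimpleGraph V} {ℓ : Sym2 V → ℝ}

theorem dto_le (hℓ : ∀ e ∈ G.edgeSet, 0 < ℓ e) {S : Set V} {b : V} (hb : b ∈ S) (x : V) :
    dto G ℓ S x ≤ pathDist G ℓ x b :=
  ciInf_le (⟨0, by rintro _ ⟨w, rfl⟩; exact pathDist_nonneg hℓ _ _⟩ :
    BddBelow (Set.range fun b : S => pathDist G ℓ x b)) ⟨b, hb⟩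

theorem exists_dto [Finite V] {S : Set V} (hS : S.Nonempty) (x : V) :
    ∃ b ∈ S, dto G ℓ S x = pathDist G ℓ x b := by
  have : Nonempty S := hS.to_subtype
  obtain ⟨b, hb⟩ := exists_eq_ciInf_of_finite (f := fun b : S => pathDist G ℓ x b)
  exact ⟨b, b.2, hb.symm⟩

theorem dto_nonneg (hℓ : ∀ e ∈ G.edgeSet, 0 < ℓ e) (S : Set V) (x : V) : 0 ≤ dto G ℓ S x :=
  Real.iInf_nonneg fun _ => pathDist_nonneg hℓ _ _

theorem le_dto {S : Set V} (hS : S.Nonempty) {x : V} {t : ℝ}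
    (h : ∀ b ∈ S, t ≤ pathDist G ℓ x b) : t ≤ dto G ℓ S x := by
  have : Nonempty S := hS.to_subtype
  exact le_ciInf fun b => h b b.2

theorem dto_zero [Finite V] (hc : G.Connected) (hℓ : ∀ e ∈ G.edgeSet, 0 < ℓ e) {S : Set V} {x : V}
    (hx : x ∈ S) : dto G ℓ S x = 0 :=
  le_antisymm ((dto_le hℓ hx x).trans ((pathDist_isMet hc hℓ).self x).le) (dto_nonneg hℓ S x)

theorem dto_empty (x : V) : dto G ℓ (∅ : Set V) x = 0 := by
  unfold dto
  exact Real.iInf_of_isEmpty _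

theorem dto_tri [Finite V] (hc : G.Connected) (hℓ : ∀ e ∈ G.edgeSet, 0 < ℓ e) (S : Set V)
    (x y : V) : dto G ℓ S x ≤ pathDist G ℓ x y + dto G ℓ S y := by
  rcases S.eq_empty_or_nonempty with rfl | hS
  · rw [dto_empty, dto_empty]
    have := pathDist_nonneg hℓ x y
    linarith
  · obtain ⟨b, hb, h⟩ := exists_dto (G := G) (ℓ := ℓ) hS y
    rw [h]
    exact (dto_le hℓ hb x).trans ((pathDist_isMet hc hℓ).tri _ _ _)

theorem dto_lip [Finite V] (hc : G.Connected) (hℓ : ∀ e ∈ G.edgeSet, 0 < ℓ e) (S : Set V)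
    (x y : V) : |dto G ℓ S x - dto G ℓ S y| ≤ pathDist G ℓ x y := by
  have h1 := dto_tri hc hℓ S x y
  have h2 := dto_tri hc hℓ S y x
  rw [(pathDist_isMet hc hℓ).symm y x] at h2
  rw [abs_le]
  constructor <;> linarith

theorem dto_adj [Finite V] (hc : G.Connected) (hℓ : ∀ e ∈ G.edgeSet, 0 < ℓ e) (S : Set V)
    {x y : V} (h : G.Adj x y) : |dto G ℓ S x - dto G ℓ S y| ≤ ℓ s(x, y) :=
  (dto_lip hc hℓ S x y).trans (pathDist_adj hℓ h)

theorem dto_mono (hℓ : ∀ e ∈ G.edgeSet, 0 < ℓ e) {S T : Set V} (h : S ⊆ T) (hS : S.Nonempty)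
    (x : V) : dto G ℓ T x ≤ dto G ℓ S x :=
  le_dto hS fun b hb => dto_le hℓ (h hb) x

theorem dto_pos [Finite V] (hc : G.Connected) (hℓ : ∀ e ∈ G.edgeSet, 0 < ℓ e) {S : Set V} {x : V}
    (hS : S.Nonempty) (hx : x ∉ S) : 0 < dto G ℓ S x := by
  obtain ⟨b, hb, h⟩ := exists_dto (G := G) (ℓ := ℓ) hS x
  rw [h]
  exact (pathDist_isMet hc hℓ).pos x b fun e => hx (e ▸ hb)

/-- a walk which leaves `U`: first exit -/
theorem exit_walk (hℓ : ∀ e ∈ G.edgeSet, 0 < ℓ e) {U : Set V} : ∀ {x y : V} (p : G.Walk x y),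
    x ∈ U → y ∉ U → ∃ v b, v ∈ U ∧ b ∉ U ∧ G.Adj v b ∧ ∃ L L' : ℝ, 0 ≤ L ∧
      pathDist G ℓ x b ≤ L + ℓ s(v, b) ∧ pathDist G ℓ b y ≤ L' ∧
      L + ℓ s(v, b) + L' = (p.edges.map ℓ).sum ∧ ReachOff G Uᶜ x v ∧
      ∀ f : V → ℝ, (∀ a ∈ U, ∀ a' ∈ U, G.Adj a a' → |f a - f a'| ≤ ℓ s(a, a')) →
        |f x - f v| ≤ L := by
  intro x y p
  induction p with
  | nil => intro hx hy; exact absurd hx hy
  | @cons x a y h p ih =>
    intro hx hy
    rw [SimpleGraph.Walk.edges_cons, List.map_cons, List.sum_cons]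
    by_cases ha : a ∈ U
    · obtain ⟨v, b, hv, hb, hvb, L, L', h0, h1, h2, h3, h4, h5⟩ := ih ha hy
      refine ⟨v, b, hv, hb, hvb, ℓ s(x, a) + L, L', ?_, ?_, h2, by linarith, ?_, ?_⟩
      · have := hℓ _ (G.mem_edgeSet.mpr h); linarith
      · have hne : Nonempty (G.Walk a b) := by
          obtain ⟨q, _⟩ := h4
          exact ⟨q.append hvb.toWalk⟩
        have key : pathDist G ℓ x b ≤ ℓ s(x, a) + pathDist G ℓ a b := by
          rw [← sub_le_iff_le_add']
          refine le_ciInf fun q => ?_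
          rw [sub_le_iff_le_add']
          have := pathDist_le hℓ (SimpleGraph.Walk.cons h q)
          rwa [SimpleGraph.Walk.edges_cons, List.map_cons, List.sum_cons] at this
        linarith
      · exact (ReachOff.adj (by simpa using hx) (by simpa using ha) h).trans h4
      · intro f hf
        have := h5 f hf
        have := hf x hx a ha h
        have := abs_sub_le (f x) (f a) (f v)
        linarith
    · refine ⟨x, a, hx, ha, h, 0, (p.edges.map ℓ).sum, le_rfl, ?_, pathDist_le hℓ p, by ring,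
        ReachOff.refl (by simpa using hx), fun f _ => by simp⟩
      rw [zero_add]
      exact pathDist_adj hℓ h

variable [Finite V] (hc : G.Connected) (hℓ : ∀ e ∈ G.edgeSet, 0 < ℓ e)
include hc hℓ

/-- the nearest point outside `U` is reached through `U`, by one dart -/
theorem exists_foot {U : Set V} (hU : Uᶜ.Nonempty) {x : V} (hx : x ∈ U) :
    ∃ v b, v ∈ U ∧ b ∉ U ∧ G.Adj v b ∧ ReachOff G Uᶜ x v ∧ pathDist G ℓ x b = dto G ℓ Uᶜ x ∧
      ∀ (f : V → ℝ) (t : ℝ), (∀ a ∈ U, ∀ a' ∈ U, G.Adj a a' → |f a - f a'| ≤ ℓ s(a, a')) →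
        |f v - t| ≤ ℓ s(v, b) → |f x - t| ≤ dto G ℓ Uᶜ x := by
  obtain ⟨y, hy, hxy⟩ := exists_dto (G := G) (ℓ := ℓ) hU x
  obtain ⟨p, hp⟩ : ∃ p : G.Walk x y, (p.edges.map ℓ).sum = pathDist G ℓ x y := by
    have hw : ∀ {u v : V} (p : G.Walk u v),
        wlen (fun a b => ℓ s(a, b)) p = (p.edges.map ℓ).sum := by
      intro u v p
      induction p with
      | nil => simp [wlen_nil]
      | cons h p ih =>
        rw [wlen_cons, ih, SimpleGraph.Walk.edges_cons, List.map_cons, List.sum_cons]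
    obtain ⟨p, hp⟩ := exists_min_walk (G := G) (ρ := fun a b => ℓ s(a, b))
      (fun u v h => hℓ _ (G.mem_edgeSet.mpr h)) (hc x y)
    refine ⟨p, le_antisymm ?_ (pathDist_le hℓ p)⟩
    have : Nonempty (G.Walk x y) := ⟨p⟩
    refine le_ciInf fun q => ?_
    rw [← hw, ← hw]
    exact hp q
  obtain ⟨v, b, hv, hb, hvb, L, L', h0, h1, h2, h3, h4, h5⟩ := exit_walk hℓ p hx hy
  have h6 := dto_le hℓ (show b ∈ Uᶜ from hb) x
  have h7 := pathDist_nonneg hℓ b y
  refine ⟨v, b, hv, hb, hvb, h4, by linarith, fun f t hf ht => ?_⟩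
  have := h5 f hf
  have := abs_sub_le (f x) (f v) t
  linarith

/-- either the geodesic stays in `U` (then functions with slopes `≤ 1` inside `U` are
nonexpansive), or it is longer than the two depths -/
theorem lip_alt {U : Set V} {x y : V} (hx : x ∈ U) (hy : y ∈ U) :
    (∀ f : V → ℝ, (∀ a ∈ U, ∀ a' ∈ U, G.Adj a a' → |f a - f a'| ≤ ℓ s(a, a')) →
      |f x - f y| ≤ pathDist G ℓ x y) ∨
    dto G ℓ Uᶜ x + dto G ℓ Uᶜ y ≤ pathDist G ℓ x y := by
  have hm := pathDist_isMet hc hℓ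
  have hw : ∀ {u v : V} (p : G.Walk u v),
      wlen (fun a b => ℓ s(a, b)) p = (p.edges.map ℓ).sum := by
    intro u v p
    induction p with
    | nil => simp [wlen_nil]
    | cons h p ih =>
      rw [wlen_cons, ih, SimpleGraph.Walk.edges_cons, List.map_cons, List.sum_cons]
  obtain ⟨p, hp⟩ := exists_min_walk (G := G) (ρ := fun a b => ℓ s(a, b))
    (fun u v h => hℓ _ (G.mem_edgeSet.mpr h)) (hc x y)
  have hp' : (p.edges.map ℓ).sum = pathDist G ℓ x y := by
    refine le_antisymm ?_ (pathDist_le hℓ p)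
    have : Nonempty (G.Walk x y) := ⟨p⟩
    refine le_ciInf fun q => ?_
    rw [← hw, ← hw]
    exact hp q
  by_cases hin : ∀ z ∈ p.support, z ∈ U
  · left
    intro f hf
    rw [← hp']
    clear hp hp'
    induction p with
    | nil => simp
    | @cons x a y h p ih =>
      rw [SimpleGraph.Walk.edges_cons, List.map_cons, List.sum_cons]
      have ha : a ∈ U := hin a (by simp)
      have h1 := ih ha hy (fun z hz => hin z (by simp [hz]))
      have h2 := hf x hx a ha h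
      have := abs_sub_le (f x) (f a) (f y)
      linarith
  · right
    push Not at hin
    obtain ⟨z, hz, hzU⟩ := hin
    classical
    have e : (p.edges.map ℓ).sum = ((p.takeUntil z hz).edges.map ℓ).sum +
        ((p.dropUntil z hz).edges.map ℓ).sum := by
      conv_lhs => rw [← SimpleGraph.Walk.take_spec p hz]
      rw [SimpleGraph.Walk.edges_append, List.map_append, List.sum_append]
    have h1 := pathDist_le hℓ (p.takeUntil z hz)
    have h2 := pathDist_le hℓ (p.dropUntil z hz)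
    have h3 := dto_le hℓ (show z ∈ Uᶜ from hzU) x
    have h4 := dto_le hℓ (show z ∈ Uᶜ from hzU) y
    rw [hm.symm y z] at h4
    linarith

omit hc hℓ [Finite V] in
theorem compSet_self {W : Set V} {x : V} (hx : x ∉ W) : x ∈ compSet G W x := ReachOff.refl hx

omit hc hℓ [Finite V] in
theorem compSet_eq {W : Set V} {x y : V} (hy : y ∈ compSet G W x) :
    compSet G W y = compSet G W x := by
  ext z
  exact ⟨fun h => ReachOff.trans hy h, fun h => (ReachOff.symm hy).trans h⟩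

omit hc hℓ [Finite V] in
theorem compSet_sub {W : Set V} {x y : V} (hy : y ∈ compSet G W x) : y ∉ W := ReachOff.right hy

omit hc hℓ [Finite V] in
theorem compSet_adj {W : Set V} {x y z : V} (hy : y ∈ compSet G W x) (h : G.Adj y z) (hz : z ∉ W) :
    z ∈ compSet G W x := ReachOff.trans hy (ReachOff.adj (ReachOff.right hy) hz h)

/-- depth in a component = distance to the removed set -/
theorem dto_comp {W : Set V} (hW : W.Nonempty) {x y : V} (hy : y ∈ compSet G W x) :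
    dto G ℓ (compSet G W x)ᶜ y = dto G ℓ W y := by
  have hWc : W ⊆ (compSet G W x)ᶜ := fun z hz h => compSet_sub h hz
  refine le_antisymm (dto_mono hℓ hWc hW y) ?_
  obtain ⟨v, b, hv, hb, hvb, _, h, _⟩ := exists_foot hc hℓ (hW.mono hWc) hy
  rw [← h]
  refine dto_le hℓ ?_ y
  by_contra hbW
  exact hb (compSet_adj hv hvb hbW)

end dto

section dom

variable {V : Type} {G : SimpleGraph V} {ℓ : Sym2 V → ℝ} {D : Dom V}

namespace Dom

theorem vis_zero (k : Fin 3 × Bool) : D.vis k 0 = D.Uᶜ := by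
  ext v
  simp [Dom.vis]

theorem compl_sub_vis (k : Fin 3 × Bool) (j : ℕ) : D.Uᶜ ⊆ D.vis k j := fun _ hv h => absurd h hv

theorem mem_U_of_not_vis {k : Fin 3 × Bool} {j : ℕ} {x : V} (h : x ∉ D.vis k j) : x ∈ D.U := by
  by_contra hx
  exact h (compl_sub_vis k j hx)

theorem not_vis_iff {k : Fin 3 × Bool} {j : ℕ} {x : V} :
    x ∉ D.vis k (j + 1) ↔ x ∈ D.U ∧ 2 ^ (j + 1) * D.s k x < 1 := by
  simp [Dom.vis]

theorem mem_vis_iff {k : Fin 3 × Bool} {j : ℕ} {x : V} (hx : x ∈ D.U) :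
    x ∈ D.vis k (j + 1) ↔ 1 ≤ 2 ^ (j + 1) * D.s k x := by
  simp [Dom.vis, hx]

end Dom

theorem IsDom.vis_mono (h : IsDom G ℓ D) {k : Fin 3 × Bool} {i j : ℕ} (hij : i ≤ j) :
    D.vis k i ⊆ D.vis k j := by
  intro v hv hvU
  obtain ⟨h1, h2⟩ := hv hvU
  refine ⟨h1.trans hij, h2.trans (mul_le_mul_of_nonneg_right ?_ (h.s0 k v))⟩
  exact pow_le_pow_right₀ (by norm_num) hij

theorem IsDom.compl_nonempty (h : IsDom G ℓ D) : D.Uᶜ.Nonempty := h.out

theorem IsDom.vis_nonempty (h : IsDom G ℓ D) (k : Fin 3 × Bool) (j : ℕ) : (D.vis k j).Nonempty :=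
  h.compl_nonempty.mono (Dom.compl_sub_vis k j)

theorem IsDom.exists_new (h : IsDom G ℓ D) (k : Fin 3 × Bool) (j : ℕ) :
    ∃ v ∈ D.U, v ∈ D.vis k (j + 1) := by
  obtain ⟨v, hv, h1⟩ := h.one k
  refine ⟨v, hv, (Dom.mem_vis_iff hv).mpr ?_⟩
  rw [h1, mul_one]
  exact one_le_pow₀ (by norm_num)

section Jm

theorem Jm_mem [Finite V] (D : Dom V) (k : Fin 3 × Bool) :
    1 ≤ D.Jm k ∧ ∀ v ∈ D.U, 0 < D.s k v → 1 ≤ 2 ^ D.Jm k * D.s k v := by
  have key : ({j | 1 ≤ j ∧ ∀ v ∈ D.U, 0 < D.s k v → 1 ≤ 2 ^ j * D.s k v} : Set ℕ).Nonempty := by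
    have h1 : ∀ v : V, ∃ j : ℕ, 0 < D.s k v → 1 ≤ 2 ^ j * D.s k v := by
      intro v
      by_cases hv : 0 < D.s k v
      · obtain ⟨j, hj⟩ := pow_unbounded_of_one_lt (1 / D.s k v) (one_lt_two (α := ℝ))
        refine ⟨j, fun _ => ?_⟩
        rw [div_lt_iff₀ hv] at hj
        exact hj.le
      · exact ⟨0, fun h => absurd h hv⟩
    choose j hj using h1
    obtain ⟨m, hm⟩ := Set.Finite.bddAbove (Set.finite_range j)
    refine ⟨m + 1, by omega, fun v _ hv => (hj v hv).trans ?_⟩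
    refine mul_le_mul_of_nonneg_right (pow_le_pow_right₀ (by norm_num) ?_) hv.le
    have := hm ⟨v, rfl⟩
    omega
  exact Nat.sInf_mem key

theorem Jm_pos [Finite V] (D : Dom V) (k : Fin 3 × Bool) : 1 ≤ D.Jm k := (Jm_mem D k).1

theorem mass_nonneg (D : Dom V) (k : Fin 3 × Bool) (j : ℕ) : 0 ≤ D.mass k j := by
  unfold Dom.mass
  split_ifs <;> positivity

theorem mass_ge (D : Dom V) (k : Fin 3 × Bool) (j : ℕ) :
    1 / 16 * (15 / 16) ^ j ≤ D.mass k j := by
  unfold Dom.mass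
  split_ifs
  · have : (0 : ℝ) ≤ (15 / 16) ^ j := by positivity
    linarith
  · exact le_rfl

theorem mass_le (D : Dom V) (k : Fin 3 × Bool) (j : ℕ) : D.mass k j ≤ (15 / 16) ^ j := by
  unfold Dom.mass
  have : (0 : ℝ) ≤ (15 / 16) ^ j := by positivity
  split_ifs <;> linarith

theorem mass_tail (D : Dom V) (k : Fin 3 × Bool) {i : ℕ} (hi : i < D.Jm k) :
    ∑ j ∈ Ico i (D.Jm k), D.mass k j = (15 / 16) ^ i := by
  obtain ⟨m, hm⟩ : ∃ m, D.Jm k = i + 1 + m := ⟨D.Jm k - (i + 1), by omega⟩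
  induction m generalizing i with
  | zero =>
    rw [hm, add_zero, Nat.Ico_succ_singleton, sum_singleton]
    unfold Dom.mass
    rw [if_pos (by omega)]
  | succ m ih =>
    rw [sum_eq_sum_Ico_succ_bot hi, ih (i := i + 1) (by omega) (by omega)]
    unfold Dom.mass
    rw [if_neg (by omega), pow_succ]
    ring

theorem mass_sum [Finite V] (D : Dom V) (k : Fin 3 × Bool) :
    ∑ j ∈ range (D.Jm k), D.mass k j = 1 := by
  have := mass_tail D k (i := 0) (Jm_pos D k)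
  rw [← range_eq_Ico] at this
  rw [this, pow_zero]

theorem E_mono {D : Dom V} {f g : Fin 3 × Bool → ℕ → ℝ} (h : ∀ k, ∀ j < D.Jm k, f k j ≤ g k j) :
    Sys.E D f ≤ Sys.E D g := by
  unfold Sys.E
  refine sum_le_sum fun k _ => mul_le_mul_of_nonneg_left ?_ (by norm_num)
  exact sum_le_sum fun j hj => mul_le_mul_of_nonneg_left (h k j (mem_range.mp hj))
    (mass_nonneg D k j)

theorem E_add (D : Dom V) (f g : Fin 3 × Bool → ℕ → ℝ) :
    Sys.E D (fun k j => f k j + g k j) = Sys.E D f + Sys.E D g := by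
  unfold Sys.E
  simp only [mul_add, sum_add_distrib]

theorem E_smul (D : Dom V) (a : ℝ) (f : Fin 3 × Bool → ℕ → ℝ) :
    Sys.E D (fun k j => a * f k j) = a * Sys.E D f := by
  unfold Sys.E
  rw [mul_sum]
  refine sum_congr rfl fun k _ => ?_
  have : ∀ j, D.mass k j * (a * f k j) = a * (D.mass k j * f k j) := fun j => by ring
  simp only [this]
  rw [← mul_sum]
  ring

theorem E_const [Finite V] (D : Dom V) (a : ℝ) : Sys.E D (fun _ _ => a) = a := by
  unfold Sys.E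
  simp only [← sum_mul, mass_sum, one_mul]
  simp

theorem E_nonneg {D : Dom V} {f : Fin 3 × Bool → ℕ → ℝ} (h : ∀ k, ∀ j < D.Jm k, 0 ≤ f k j) :
    0 ≤ Sys.E D f := by
  unfold Sys.E
  refine sum_nonneg fun k _ => mul_nonneg (by norm_num) ?_
  exact sum_nonneg fun j hj => mul_nonneg (mass_nonneg D k j) (h k j (mem_range.mp hj))

end Jm

theorem sl_symm (D : Dom V) (k : Fin 3 × Bool) (x y : V) : D.sl k x y = D.sl k y x := by
  unfold Dom.sl
  by_cases hx : x ∈ D.U <;> by_cases hy : y ∈ D.U <;> simp [hx, hy, min_comm]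

theorem IsDom.sl_nonneg (h : IsDom G ℓ D) (k : Fin 3 × Bool) (x y : V) : 0 ≤ D.sl k x y := by
  have h1 := h.s0 k x
  have h2 := h.s0 k y
  unfold Dom.sl
  split_ifs
  · exact le_min h1 h2
  · exact h1
  · exact h2
  · exact zero_le_one

theorem IsDom.sl_le_one (h : IsDom G ℓ D) (k : Fin 3 × Bool) (x y : V) : D.sl k x y ≤ 1 := by
  have h1 := h.s1 k x
  have h2 := h.s1 k y
  unfold Dom.sl
  split_ifs
  · exact (min_le_left _ _).trans h1
  · exact h1
  · exact h2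
  · exact le_rfl

/-- slope bound for an edge inside `U` -/
theorem IsDom.edge_sl (h : IsDom G ℓ D) (k : Fin 3 × Bool) {x y : V} (hx : x ∈ D.U) (hy : y ∈ D.U)
    (hxy : G.Adj x y) : |D.c k x - D.c k y| ≤ D.sl k x y * ℓ s(x, y) := by
  unfold Dom.sl
  rw [if_pos hx, if_pos hy]
  exact h.edge k x y hx hy hxy

theorem IsDom.dart_sl (h : IsDom G ℓ D) (k : Fin 3 × Bool) {x y : V} (hx : x ∈ D.U) (hy : y ∉ D.U)
    (hxy : G.Adj x y) : |D.c k x - D.X ℓ k x y| ≤ D.sl k x y * ℓ s(x, y) := by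
  unfold Dom.sl
  rw [if_pos hx, if_neg hy]
  exact h.dart k x y ⟨hx, hy, hxy⟩

theorem IsDom.edge_one (h : IsDom G ℓ D) (hℓ : ∀ e ∈ G.edgeSet, 0 < ℓ e) (k : Fin 3 × Bool)
    {x y : V} (hx : x ∈ D.U) (hy : y ∈ D.U) (hxy : G.Adj x y) :
    |D.c k x - D.c k y| ≤ ℓ s(x, y) := by
  have h1 := h.edge_sl k hx hy hxy
  have h2 := mul_le_mul_of_nonneg_right (h.sl_le_one k x y) (hℓ _ (G.mem_edgeSet.mpr hxy)).le
  linarith

theorem IsDom.dart_one (h : IsDom G ℓ D) (hℓ : ∀ e ∈ G.edgeSet, 0 < ℓ e) (k : Fin 3 × Bool)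
    {x y : V} (hd : D.Dart G x y) : |D.c k x - D.X ℓ k x y| ≤ ℓ s(x, y) := by
  have h1 := h.dart_sl k hd.1 hd.2.1 hd.2.2
  have h2 := mul_le_mul_of_nonneg_right (h.sl_le_one k x y) (hℓ _ (G.mem_edgeSet.mpr hd.2.2)).le
  linarith

/-- the foot of `x ∈ U`: a dart at distance `dto`, all coordinates within `dto` -/
theorem IsDom.foot' [Finite V] (hc : G.Connected) (hℓ : ∀ e ∈ G.edgeSet, 0 < ℓ e)
    (h : IsDom G ℓ D) {x : V} (hx : x ∈ D.U) : ∃ v b, D.Dart G v b ∧
      pathDist G ℓ x b = dto G ℓ D.Uᶜ x ∧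
      (∀ k, |D.c k x - D.X ℓ k v b| ≤ dto G ℓ D.Uᶜ x) ∧
      ∀ (f : V → ℝ) (t : ℝ), (∀ a ∈ D.U, ∀ a' ∈ D.U, G.Adj a a' → |f a - f a'| ≤ ℓ s(a, a')) →
        |f v - t| ≤ ℓ s(v, b) → |f x - t| ≤ dto G ℓ D.Uᶜ x := by
  obtain ⟨v, b, hv, hb, hvb, _, h1, h2⟩ := exists_foot hc hℓ h.compl_nonempty hx
  refine ⟨v, b, ⟨hv, hb, hvb⟩, h1, fun k => ?_, h2⟩
  exact h2 (D.c k) _ (fun a ha a' ha' haa => h.edge_one hℓ k ha ha' haa)
    (h.dart_one hℓ k ⟨hv, hb, hvb⟩)

end dom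

section sys

variable {V : Type} {G : SimpleGraph V} {ℓ : Sym2 V → ℝ} {K : ℝ} {S : Sys G ℓ K} {D : Dom V}
  {k : Fin 3 × Bool} {j : ℕ}

namespace Sys

theorem chS_spec (hD : S.Good D) {x : V} (hx : x ∉ D.vis k (j + 1)) :
    S.Good (S.ch D k j x) ∧ (S.ch D k j x).U = compSet G (D.vis k (j + 1)) x ∧
      Link G D (S.ch D k j x) k (j + 1) := by
  have h := S.child D hD k j x hx
  unfold ch chS
  rw [dif_pos h]
  exact h.choose_spec

theorem ch_good (hD : S.Good D) {x : V} (hx : x ∉ D.vis k (j + 1)) : S.Good (S.ch D k j x) :=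
  (chS_spec hD hx).1

theorem ch_U (hD : S.Good D) {x : V} (hx : x ∉ D.vis k (j + 1)) :
    (S.ch D k j x).U = compSet G (D.vis k (j + 1)) x := (chS_spec hD hx).2.1

theorem ch_link (hD : S.Good D) {x : V} (hx : x ∉ D.vis k (j + 1)) :
    Link G D (S.ch D k j x) k (j + 1) := (chS_spec hD hx).2.2

theorem ch_mem (hD : S.Good D) {x : V} (hx : x ∉ D.vis k (j + 1)) : x ∈ (S.ch D k j x).U := by
  rw [ch_U hD hx]
  exact ReachOff.refl hx

theorem ch_congr {x y : V} (hy : y ∈ compSet G (D.vis k (j + 1)) x) :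
    S.ch D k j y = S.ch D k j x := by
  unfold ch
  rw [compSet_eq hy]

theorem ch_congr' (hD : S.Good D) {x y : V} (hx : x ∉ D.vis k (j + 1))
    (hy : y ∈ (S.ch D k j x).U) : S.ch D k j y = S.ch D k j x := by
  rw [ch_U hD hx] at hy
  exact ch_congr hy

theorem not_vis_of_ch (hD : S.Good D) {x y : V} (hx : x ∉ D.vis k (j + 1))
    (hy : y ∈ (S.ch D k j x).U) : y ∉ D.vis k (j + 1) := by
  rw [ch_U hD hx] at hy
  exact compSet_sub hy

theorem ch_sub (hD : S.Good D) {x : V} (hx : x ∉ D.vis k (j + 1)) :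
    (S.ch D k j x).U ⊆ D.U := fun _ hy => Dom.mem_U_of_not_vis (not_vis_of_ch hD hx hy)

theorem ch_ncard [Finite V] (hD : S.Good D) {x : V} (hx : x ∉ D.vis k (j + 1)) :
    (S.ch D k j x).U.ncard < D.U.ncard := by
  obtain ⟨v, hv, hv'⟩ := (S.dom D hD).exists_new k j
  refine Set.ncard_lt_ncard ⟨ch_sub hD hx, fun h => ?_⟩ (Set.toFinite _)
  exact not_vis_of_ch hD hx (h hv) hv'

theorem dto_ch [Finite V] (hc : G.Connected) (hℓ : ∀ e ∈ G.edgeSet, 0 < ℓ e) (hD : S.Good D)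
    {x : V} (hx : x ∉ D.vis k (j + 1)) :
    dto G ℓ (S.ch D k j x).Uᶜ x = dto G ℓ (D.vis k (j + 1)) x := by
  rw [ch_U hD hx]
  exact dto_comp hc hℓ ((S.dom D hD).vis_nonempty k (j + 1)) (ReachOff.refl hx)

/-- a dart of the child ends at a newly or formerly visible vertex -/
theorem ch_dart (hD : S.Good D) {x v b : V} (hx : x ∉ D.vis k (j + 1))
    (h : (S.ch D k j x).Dart G v b) : b ∈ D.vis k (j + 1) := by
  by_contra hb
  obtain ⟨h1, h2, h3⟩ := h
  rw [ch_U hD hx] at h1 h2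
  exact h2 (compSet_adj h1 h3 hb)

theorem mem_comps [Finite V] {W : Set V} :
    W ∈ comps G D k j ↔ ∃ x, x ∉ D.vis k (j + 1) ∧ W = compSet G (D.vis k (j + 1)) x := by
  simp [comps]

theorem comp_mem_comps [Finite V] {x : V} (hx : x ∉ D.vis k (j + 1)) :
    compSet G (D.vis k (j + 1)) x ∈ comps G D k j := mem_comps.mpr ⟨x, hx, rfl⟩

theorem comps_spec [Finite V] (hD : S.Good D) {W : Set V} (hW : W ∈ comps G D k j) :
    S.Good (S.chS D k j W) ∧ (S.chS D k j W).U = W ∧ (S.chS D k j W).U ⊆ D.U := by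
  obtain ⟨x, hx, rfl⟩ := mem_comps.mp hW
  exact ⟨ch_good hD hx, ch_U hD hx, ch_sub hD hx⟩

/-- different components are disjoint -/
theorem comps_eq [Finite V] {W : Set V} (hW : W ∈ comps G D k j) {x : V} (hx : x ∈ W) :
    W = compSet G (D.vis k (j + 1)) x := by
  obtain ⟨y, hy, rfl⟩ := mem_comps.mp hW
  exact (compSet_eq hx).symm

end Sys

variable [Finite V] {st mv : Dom V → Fin 3 × Bool → ℕ → V → V → ℝ} {C' C c c1 : ℝ}

theorem Maps.sig_l1 (h : Maps G ℓ C' C c c1 S st mv) : ∀ n (D : Dom V), S.Good D →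
    IsL1 (S.sig st mv n D) := by
  intro n
  induction n with
  | zero => intro D _; exact IsL1.zero
  | succ n ih =>
    intro D hD
    refine (IsL1.sum univ (fun k a b => 1 / 6 * ∑ j ∈ range (D.Jm k), ((15 / 16) ^ j *
      st D k j a b + D.mass k j * (mv D k j a b +
        ∑ W ∈ Sys.comps G D k j, S.sig st mv n (S.chS D k j W) a b))) fun k _ => ?_)
    refine IsL1.smul (IsL1.sum (range (D.Jm k)) (fun j a b => (15 / 16) ^ j *
      st D k j a b + D.mass k j * (mv D k j a b +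
        ∑ W ∈ Sys.comps G D k j, S.sig st mv n (S.chS D k j W) a b)) fun j _ => ?_) (by norm_num)
    refine IsL1.add ((h.st D hD k j).l1.smul (by positivity)) ?_
    refine IsL1.smul (IsL1.add (h.mv D hD k j).l1 ?_) (mass_nonneg D k j)
    exact IsL1.sum _ (fun W a b => S.sig st mv n (S.chS D k j W) a b) fun W hW =>
      ih _ (Sys.comps_spec hD hW).1

theorem Maps.sig_nonneg (h : Maps G ℓ C' C c c1 S st mv) (n : ℕ) (hD : S.Good D) (x y : V) :
    0 ≤ S.sig st mv n D x y := (h.sig_l1 n D hD).nonneg x y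

theorem Maps.sig_symm (h : Maps G ℓ C' C c c1 S st mv) (n : ℕ) (hD : S.Good D) (x y : V) :
    S.sig st mv n D x y = S.sig st mv n D y x := (h.sig_l1 n D hD).symm x y

theorem Maps.sig_zero (h : Maps G ℓ C' C c c1 S st mv) : ∀ n (D : Dom V), S.Good D →
    ∀ a ∉ D.U, ∀ b ∉ D.U, S.sig st mv n D a b = 0 := by
  intro n
  induction n with
  | zero => intro D _ a _ b _; rfl
  | succ n ih =>
    intro D hD a ha b hb
    show ∑ k, 1 / 6 * ∑ j ∈ range (D.Jm k), ((15 / 16) ^ j * st D k j a b +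
      D.mass k j * (mv D k j a b +
        ∑ W ∈ Sys.comps G D k j, S.sig st mv n (S.chS D k j W) a b)) = 0
    refine sum_eq_zero fun k _ => ?_
    rw [sum_eq_zero, mul_zero]
    intro j _
    rw [(h.st D hD k j).zero a (Dom.compl_sub_vis k j ha) b (Dom.compl_sub_vis k j hb),
      (h.mv D hD k j).zero a ha b hb, sum_eq_zero]
    · ring
    · intro W hW
      obtain ⟨h1, h2, h3⟩ := Sys.comps_spec hD hW
      exact ih _ h1 a (fun h' => ha (h3 h')) b (fun h' => hb (h3 h'))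

/-- the sum over the components, when `x` is in the component `W0` and `y` is in it or visible:
only one term -/
theorem Maps.comps_sum_eq (h : Maps G ℓ C' C c c1 S st mv) (n : ℕ) (hD : S.Good D) {x y : V}
    (hx : x ∉ D.vis k (j + 1))
    (hy : y ∈ D.vis k (j + 1) ∨ y ∈ compSet G (D.vis k (j + 1)) x) :
    ∑ W ∈ Sys.comps G D k j, S.sig st mv n (S.chS D k j W) x y =
      S.sig st mv n (S.ch D k j x) x y := by
  rw [sum_eq_single (compSet G (D.vis k (j + 1)) x)]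
  · rfl
  · intro W hW hne
    obtain ⟨h1, h2, h3⟩ := Sys.comps_spec hD hW
    refine h.sig_zero n _ h1 x ?_ y ?_
    · rw [h2]
      exact fun hxW => hne (Sys.comps_eq hW hxW)
    · rw [h2]
      intro hyW
      obtain ⟨z, hz, rfl⟩ := Sys.mem_comps.mp hW
      rcases hy with hy | hy
      · exact compSet_sub hyW hy
      · exact hne ((compSet_eq hyW).symm.trans (compSet_eq hy))
  · intro h'
    exact absurd (Sys.comp_mem_comps hx) h'

/-- both visible: no contribution of the components -/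
theorem Maps.comps_sum_zero (h : Maps G ℓ C' C c c1 S st mv) (n : ℕ) (hD : S.Good D) {x y : V}
    (hx : x ∈ D.vis k (j + 1)) (hy : y ∈ D.vis k (j + 1)) :
    ∑ W ∈ Sys.comps G D k j, S.sig st mv n (S.chS D k j W) x y = 0 := by
  refine sum_eq_zero fun W hW => ?_
  obtain ⟨h1, h2, h3⟩ := Sys.comps_spec hD hW
  obtain ⟨z, hz, rfl⟩ := Sys.mem_comps.mp hW
  refine h.sig_zero n _ h1 x ?_ y ?_
  · rw [h2]; exact fun h' => compSet_sub h' hx
  · rw [h2]; exact fun h' => compSet_sub h' hy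

/-- one component is a lower bound -/
theorem Maps.le_comps_sum (h : Maps G ℓ C' C c c1 S st mv) (n : ℕ) (hD : S.Good D) {x y z : V}
    (hz : z ∉ D.vis k (j + 1)) : S.sig st mv n (S.ch D k j z) x y ≤
      ∑ W ∈ Sys.comps G D k j, S.sig st mv n (S.chS D k j W) x y :=
  single_le_sum (f := fun W => S.sig st mv n (S.chS D k j W) x y)
    (fun W hW => h.sig_nonneg n (Sys.comps_spec hD hW).1 x y) (Sys.comp_mem_comps hz)

/-- two different components -/
theorem Maps.le_comps_sum_two (h : Maps G ℓ C' C c c1 S st mv) (n : ℕ) (hD : S.Good D) {x y : V}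
    (hx : x ∉ D.vis k (j + 1)) (hy : y ∉ D.vis k (j + 1))
    (hne : y ∉ compSet G (D.vis k (j + 1)) x) :
    S.sig st mv n (S.ch D k j x) x y + S.sig st mv n (S.ch D k j y) x y ≤
      ∑ W ∈ Sys.comps G D k j, S.sig st mv n (S.chS D k j W) x y := by
  classical
  have hne' : compSet G (D.vis k (j + 1)) x ≠ compSet G (D.vis k (j + 1)) y := by
    intro e
    apply hne
    rw [e]
    exact ReachOff.refl hy
  have hsub : ({compSet G (D.vis k (j + 1)) x, compSet G (D.vis k (j + 1)) y} : Finset (Set V)) ⊆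
      Sys.comps G D k j := by
    intro W hW
    rw [mem_insert, mem_singleton] at hW
    rcases hW with rfl | rfl
    · exact Sys.comp_mem_comps hx
    · exact Sys.comp_mem_comps hy
  have h1 := sum_le_sum_of_subset_of_nonneg hsub
    (f := fun W => S.sig st mv n (S.chS D k j W) x y)
    (fun W hW _ => h.sig_nonneg n (Sys.comps_spec hD hW).1 x y)
  rw [sum_pair hne'] at h1
  exact h1

end sys

end Vale.Agent.P235.LL
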