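import Vale.Agent.P235.LL.Proc

/-! P235, LL: the rows (named statements) of the process half. -/

namespace Vale.Agent.P235.LL

open Vale.Agent.P235 Finset

/-- EXTEND: `L₁` semimetrics extend from the visible set by Lipschitz functions of coordinates -/
def RowExtend : Prop := ∀ (κ : Type) [Fintype κ], ∃ C : ℝ, 1 ≤ C ∧
  ∀ (V : Type) [Finite V] (φ : V → V → ℝ), IsL1 φ → ∀ (Vis : Set V) (ι : Type) (q : V → ι)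
    (E : ι → Set (V × (κ → ℝ))) (Y : V → κ → ℝ) (L : ℝ), 0 ≤ L → (∀ i, (E i).Finite) →
    (∀ i, ∀ e ∈ E i, e.1 ∈ Vis) →
    (∀ i, ∀ e ∈ E i, ∀ e' ∈ E i, φ e.1 e'.1 ≤ L * ∑ t, |e.2 t - e'.2 t|) →
    ∃ φ' : V → V → ℝ, IsL1 φ' ∧ (∀ a ∈ Vis, ∀ b ∈ Vis, φ' a b = φ a b) ∧
      (∀ x ∉ Vis, ∀ y ∉ Vis, q x = q y → φ' x y ≤ C * L * ∑ t, |Y x t - Y y t|) ∧
      (∀ x ∉ Vis, ∀ e ∈ E (q x), φ' x e.1 ≤ C * L * ∑ t, |Y x t - e.2 t|)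

/-- STEPMAPS -/
def RowStep : Prop := ∃ C : ℝ, 1 ≤ C ∧ ∀ (V : Type) [Finite V] (G : SimpleGraph V)
  (ℓ : Sym2 V → ℝ) (K : ℝ), G.Connected → (∀ e ∈ G.edgeSet, 0 < ℓ e) → 1 ≤ K →
  ∀ (S : Sys G ℓ K) (D : Dom V), S.Good D → ∀ k j, ∃ st, IsStep G ℓ C S D k j st

/-- MOVEMAPS -/
def RowMove : Prop := ∃ C c c1 : ℝ, 1 ≤ C ∧ 0 < c ∧ 0 < c1 ∧ c1 ≤ 1 / 4 ∧
  ∀ (V : Type) [Finite V] (G : SimpleGraph V)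
  (ℓ : Sym2 V → ℝ) (K : ℝ), G.Connected → (∀ e ∈ G.edgeSet, 0 < ℓ e) → 1 ≤ K →
  ∀ (S : Sys G ℓ K) (D : Dom V), S.Good D → ∀ k j, ∃ mv, IsMove G ℓ C c c1 S D k j mv

/-- COST = (7) -/
def RowCost : Prop := ∀ C' C c c1 : ℝ, 1 ≤ C' → 1 ≤ C → ∃ A : ℝ, 1 ≤ A ∧
  ∀ (V : Type) [Finite V] (G : SimpleGraph V) (ℓ : Sym2 V → ℝ) (K : ℝ), G.Connected →
  (∀ e ∈ G.edgeSet, 0 < ℓ e) → 1 ≤ K → ∀ (S : Sys G ℓ K) st mv, Maps G ℓ C' C c c1 S st mv →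
  ∀ n D, S.Good D → ∀ x y, G.Adj x y → S.sig st mv n D x y ≤ A * ℓ s(x, y)

/-- LIN2 = (8), two moves -/
def RowLin : Prop := ∃ K1 K2 : ℝ, 0 ≤ K1 ∧ 0 ≤ K2 ∧ ∀ (V : Type) [Finite V] (G : SimpleGraph V)
  (ℓ : Sym2 V → ℝ) (K : ℝ), G.Connected → (∀ e ∈ G.edgeSet, 0 < ℓ e) → 1 ≤ K →
  ∀ (S : Sys G ℓ K) (D : Dom V), S.Good D → ∀ k j, ∀ x ∉ D.vis k (j + 1),
  dto G ℓ D.Uᶜ x - dto G ℓ (S.ch D k j x).Uᶜ x ≤ K1 * S.N D k j x +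
    K2 * S.EN (S.ch D k j x) x + 1 / 16 * Sys.R1 G ℓ (S.ch D k j x) x +
    1 / 16 * S.R2 (S.ch D k j x) x

/-- SINGLE: total gain of a point -/
def RowSingle : Prop := ∃ c : ℝ, 0 < c ∧ ∀ (V : Type) [Finite V] (G : SimpleGraph V)
  (ℓ : Sym2 V → ℝ) (K : ℝ), G.Connected → (∀ e ∈ G.edgeSet, 0 < ℓ e) → 1 ≤ K →
  ∀ (S : Sys G ℓ K) n (D : Dom V), S.Good D → D.U.ncard ≤ n → ∀ x ∈ D.U,
  c * dto G ℓ D.Uᶜ x ≤ S.SN n D x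

/-- PAIR = (9) along the recursion -/
def RowPair : Prop := ∀ C' C c c1 : ℝ, 1 ≤ C' → 1 ≤ C → 0 < c → 0 < c1 →
  ∀ (V : Type) [Finite V] (G : SimpleGraph V) (ℓ : Sym2 V → ℝ) (K : ℝ), G.Connected →
  (∀ e ∈ G.edgeSet, 0 < ℓ e) → 1 ≤ K → ∀ (S : Sys G ℓ K) st mv, Maps G ℓ C' C c c1 S st mv →
  ∀ n D, S.Good D →
    (∀ x ∈ D.U, ∀ y ∉ D.U, c * S.SN n D x ≤ S.sig st mv n D x y) ∧
    (∀ x ∈ D.U, ∀ y ∈ D.U, dto G ℓ D.Uᶜ x + dto G ℓ D.Uᶜ y ≤ c1 * pathDist G ℓ x y →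
      c * (S.SN n D x + S.SN n D y) ≤ S.sig st mv n D x y)

/-- ALL = (10): if single points and pairs gain, then every pair which starts far from the
boundary is separated -/
def RowAll : Prop := ∀ C' C c c1 c2 : ℝ, 1 ≤ C' → 1 ≤ C → 0 < c → 0 < c1 → c1 ≤ 1 / 4 → 0 < c2 →
  ∃ c3 : ℝ, 0 < c3 ∧
  ∀ (V : Type) [Finite V] (G : SimpleGraph V) (ℓ : Sym2 V → ℝ) (K : ℝ), G.Connected →
  (∀ e ∈ G.edgeSet, 0 < ℓ e) → 1 ≤ K → ∀ (S : Sys G ℓ K) st mv, Maps G ℓ C' C c c1 S st mv →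
  (∀ n D, S.Good D → D.U.ncard ≤ n → (∀ x ∈ D.U, ∀ y ∉ D.U,
      c2 * dto G ℓ D.Uᶜ x ≤ S.sig st mv n D x y) ∧
    (∀ x ∈ D.U, ∀ y ∈ D.U, dto G ℓ D.Uᶜ x + dto G ℓ D.Uᶜ y ≤ c1 * pathDist G ℓ x y →
      c2 * (dto G ℓ D.Uᶜ x + dto G ℓ D.Uᶜ y) ≤ S.sig st mv n D x y)) →
  ∀ n D, S.Good D → D.U.ncard ≤ n → ∀ x ∈ D.U, ∀ y ∈ D.U,
    c1 * pathDist G ℓ x y ≤ dto G ℓ D.Uᶜ x + dto G ℓ D.Uᶜ y →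
    c3 * pathDist G ℓ x y ≤ K * S.sig st mv n D x y

/-- TOP of the process half -/
def RowProcess : Prop := ∃ C : ℝ, 1 ≤ C ∧ ∀ (V : Type) [Finite V] (G : SimpleGraph V)
  (ℓ : Sym2 V → ℝ) (K : ℝ), G.Connected → (∀ e ∈ G.edgeSet, 0 < ℓ e) → 1 ≤ K →
  ∀ (S : Sys G ℓ K) (r r' : V),
  (∀ x, x ≠ r → x ≠ r' → ∃ D, S.Good D ∧ D.U = compSet G {r, r'} x) →
  EmbedsL1 (pathDist G ℓ) (C * K)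

end Vale.Agent.P235.LL
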