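import Vale.Agent.P235.Comp.Core

/-! P235, LL: the process half, definitions. A coordinate is `k = (i, t) : Fin 3 × Bool`
(`i` = piece, `t = true`: `tau = w i`, `t = false`: `tau = 0`); the step number `j` of a coordinate is
counted from `0`, the threshold of `vis k (j + 1)` is `2 ^ -(j + 1)`. -/

namespace Vale.Agent.P235.LL

open Vale.Agent.P235 Finset

/-- distance to a set -/
noncomputable def dto {V : Type} (G : SimpleGraph V) (ℓ : Sym2 V → ℝ) (S : Set V) (x : V) : ℝ :=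
  ⨅ b : S, pathDist G ℓ x b

/-- the data of a domain -/
structure Dom (V : Type) where
  U : Set V
  P : Fin 3 → Set V
  w : Fin 3 → V → ℝ
  c : Fin 3 × Bool → V → ℝ
  s : Fin 3 × Bool → V → ℝ

namespace Dom

variable {V : Type}

/-- value on the piece -/
def tau (D : Dom V) (k : Fin 3 × Bool) (b : V) : ℝ := if k.2 = true then D.w k.1 b else 0

/-- `(v, b)` is a dart of `D` -/
def Dart (G : SimpleGraph V) (D : Dom V) (v b : V) : Prop := v ∈ D.U ∧ b ∉ D.U ∧ G.Adj v b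

open Classical in
/-- coordinate of the dart `(v, b)` -/
noncomputable def X (ℓ : Sym2 V → ℝ) (D : Dom V) (k : Fin 3 × Bool) (v b : V) : ℝ :=
  if b ∈ D.P k.1 then D.tau k b else ℓ s(v, b) + D.c k v

/-- the visible set of step `j` of coordinate `k` (`j = 0`: complement of `U`) -/
def vis (D : Dom V) (k : Fin 3 × Bool) (j : ℕ) : Set V :=
  {v | v ∈ D.U → 1 ≤ j ∧ 1 ≤ 2 ^ j * D.s k v}

open Classical in
/-- the carried value -/
noncomputable def cv (D : Dom V) (k : Fin 3 × Bool) (b : V) : ℝ :=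
  if b ∈ D.U then D.c k b else D.tau k b

open Classical in
/-- slope of an edge which meets `U` -/
noncomputable def sl (D : Dom V) (k : Fin 3 × Bool) (x y : V) : ℝ :=
  if x ∈ D.U then (if y ∈ D.U then min (D.s k x) (D.s k y) else D.s k x)
  else (if y ∈ D.U then D.s k y else 1)

/-- number of steps of coordinate `k` -/
noncomputable def Jm (D : Dom V) (k : Fin 3 × Bool) : ℕ :=
  sInf {j | 1 ≤ j ∧ ∀ v ∈ D.U, 0 < D.s k v → 1 ≤ 2 ^ j * D.s k v}

/-- mass of stopping after step `j + 1` -/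
noncomputable def mass (D : Dom V) (k : Fin 3 × Bool) (j : ℕ) : ℝ :=
  if j + 1 = D.Jm k then (15 / 16) ^ j else 1 / 16 * (15 / 16) ^ j

end Dom

variable {V : Type}

/-- the domain axioms -/
structure IsDom (G : SimpleGraph V) (ℓ : Sym2 V → ℝ) (D : Dom V) : Prop where
  out : ∃ b, b ∉ D.U
  one : ∀ k, ∃ v ∈ D.U, D.s k v = 1
  s0 : ∀ k v, 0 ≤ D.s k v
  s1 : ∀ k v, D.s k v ≤ 1
  pc : ∀ i, ∀ b ∈ D.P i, b ∉ D.U
  cover : ∀ v b, D.Dart G v b → ∃ i, b ∈ D.P i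
  pd : ∀ i, ∀ b ∈ D.P i, ∀ b' ∈ D.P i, pathDist G ℓ b b' ≤ |D.w i b - D.w i b'|
  edge : ∀ k v y, v ∈ D.U → y ∈ D.U → G.Adj v y →
    |D.c k v - D.c k y| ≤ min (D.s k v) (D.s k y) * ℓ s(v, y)
  dart : ∀ k v b, D.Dart G v b → |D.c k v - D.X ℓ k v b| ≤ D.s k v * ℓ s(v, b)
  ctrl : ∀ v b v' b', D.Dart G v b → D.Dart G v' b' →
    pathDist G ℓ b b' ≤ 2 * ∑ k, |D.X ℓ k v b - D.X ℓ k v' b'|
  pos : ∀ i, ∀ v ∈ D.U, D.s (i, false) v * dto G ℓ D.Uᶜ v ≤ D.c (i, false) v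
  foot : ∀ i v b, D.Dart G v b → ∃ v' a, D.Dart G v' a ∧ a ∈ D.P i ∧ ∀ f : V → ℝ,
    (∀ x ∈ D.U, ∀ y, G.Adj x y → |f x - f y| ≤ ℓ s(x, y)) →
      |f b - f a| ≤ D.X ℓ (i, false) v b

/-- `D'` is a child of `D` by the move `(k, j)`, i.e. with threshold `2 ^ -j` -/
structure Link (G : SimpleGraph V) (D D' : Dom V) (k : Fin 3 × Bool) (j : ℕ) : Prop where
  nb : ∀ v b, D'.Dart G v b → b ∈ D.U ∨ b ∈ D.P k.1
  pc : ∀ i, (∀ b ∈ D'.P i, D'.w i b = 2 ^ j * D.cv k b) ∨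
    (k.2 = false ∧ ∀ b ∈ D'.P i, b ∈ D.P k.1)

/-- a system of domains -/
structure Sys (G : SimpleGraph V) (ℓ : Sym2 V → ℝ) (K : ℝ) where
  Good : Dom V → Prop
  dom : ∀ D, Good D → IsDom G ℓ D
  child : ∀ D, Good D → ∀ k j, ∀ x ∉ D.vis k (j + 1), ∃ D', Good D' ∧
    D'.U = compSet G (D.vis k (j + 1)) x ∧ Link G D D' k (j + 1)
  step : ∀ D, Good D → ∀ k j, ∃ ψ : V → V → ℝ, IsL1 ψ ∧
    (∀ a ∈ D.vis k j, ∀ b ∈ D.vis k j, ψ a b = 0) ∧
    (∀ a ∈ D.vis k (j + 1), ∀ b ∈ D.vis k (j + 1), ψ a b ≤ pathDist G ℓ a b) ∧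
    (∀ a ∈ D.vis k (j + 1), ∀ b ∈ D.vis k (j + 1),
      min (pathDist G ℓ a b) (dto G ℓ (D.vis k j) a + dto G ℓ (D.vis k j) b) ≤ K * ψ a b)

namespace Sys

variable {G : SimpleGraph V} {ℓ : Sym2 V → ℝ} {K : ℝ}

open Classical in
/-- the chosen child with invisible set `W` -/
noncomputable def chS (S : Sys G ℓ K) (D : Dom V) (k : Fin 3 × Bool) (j : ℕ) (W : Set V) : Dom V :=
  if h : ∃ D', S.Good D' ∧ D'.U = W ∧ Link G D D' k (j + 1) then h.choose else D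

/-- the child which contains `x` -/
noncomputable def ch (S : Sys G ℓ K) (D : Dom V) (k : Fin 3 × Bool) (j : ℕ) (x : V) : Dom V :=
  S.chS D k j (compSet G (D.vis k (j + 1)) x)

/-- `D` together with one carried coordinate: distance of the point `x` of the child `D'` from its
darts, measured in the coordinates, plus the depth of the foot in `D` -/
noncomputable def Nd (G : SimpleGraph V) (ℓ : Sym2 V → ℝ) (D D' : Dom V) (k : Fin 3 × Bool) (j : ℕ)
    (x : V) : ℝ :=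
  ⨅ e : {e : V × V // D'.Dart G e.1 e.2}, (dto G ℓ D.Uᶜ e.1.2 +
    ∑ i, |D'.X ℓ i e.1.1 e.1.2 - D'.c i x| + 2 ^ (j + 1) * |D.cv k e.1.2 - D.c k x|)

open Classical in
/-- the gain of the move `(k, j)` at `x` -/
noncomputable def N (S : Sys G ℓ K) (D : Dom V) (k : Fin 3 × Bool) (j : ℕ) (x : V) : ℝ :=
  if x ∈ D.vis k (j + 1) then dto G ℓ D.Uᶜ x else Nd G ℓ D (S.ch D k j x) k j x

/-- expectation over one move -/
noncomputable def E (D : Dom V) (f : Fin 3 × Bool → ℕ → ℝ) : ℝ :=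
  ∑ k, 1 / 6 * ∑ j ∈ range (D.Jm k), D.mass k j * f k j

open Classical in
/-- total gain at `x` -/
noncomputable def SN (S : Sys G ℓ K) : ℕ → Dom V → V → ℝ
  | 0, _, _ => 0
  | n + 1, D, x => E D fun k j =>
      S.N D k j x + if x ∈ D.vis k (j + 1) then 0 else SN S n (S.ch D k j x) x

/-- expected gain of the next move -/
noncomputable def EN (S : Sys G ℓ K) (D : Dom V) (x : V) : ℝ := E D fun k j => S.N D k j x

/-- expected progress of the next move -/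
noncomputable def R1 (G : SimpleGraph V) (ℓ : Sym2 V → ℝ) (D : Dom V) (x : V) : ℝ :=
  E D fun k j => dto G ℓ D.Uᶜ x - dto G ℓ (D.vis k (j + 1)) x

open Classical in
/-- expected progress of the move after the next one -/
noncomputable def R2 (S : Sys G ℓ K) (D : Dom V) (x : V) : ℝ :=
  E D fun k j => if x ∈ D.vis k (j + 1) then 0 else R1 G ℓ (S.ch D k j x) x

/-- the components of the invisible set of the move `(k, j)` -/
noncomputable def comps [Finite V] (G : SimpleGraph V) (D : Dom V) (k : Fin 3 × Bool) (j : ℕ) :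
    Finset (Set V) :=
  (Set.toFinite {W | ∃ x, x ∉ D.vis k (j + 1) ∧ W = compSet G (D.vis k (j + 1)) x}).toFinset

/-- the semimetric of a domain: `st` = step maps, `mv` = maps of the moves -/
noncomputable def sig [Finite V] (S : Sys G ℓ K)
    (st mv : Dom V → Fin 3 × Bool → ℕ → V → V → ℝ) : ℕ → Dom V → V → V → ℝ
  | 0, _, _, _ => 0
  | n + 1, D, a, b => ∑ k, 1 / 6 * ∑ j ∈ range (D.Jm k), ((15 / 16) ^ j * st D k j a b +
      D.mass k j * (mv D k j a b + ∑ W ∈ comps G D k j, sig S st mv n (S.chS D k j W) a b))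

end Sys

/-- properties of the extended step map of step `j + 1` -/
structure IsStep (G : SimpleGraph V) (ℓ : Sym2 V → ℝ) {K : ℝ} (C : ℝ) (S : Sys G ℓ K) (D : Dom V)
    (k : Fin 3 × Bool) (j : ℕ) (st : V → V → ℝ) : Prop where
  l1 : IsL1 st
  zero : ∀ a ∈ D.vis k j, ∀ b ∈ D.vis k j, st a b = 0
  vis : ∀ a ∈ D.vis k (j + 1), ∀ b ∈ D.vis k (j + 1), st a b ≤ pathDist G ℓ a b
  alive : ∀ x y, G.Adj x y → x ∉ D.vis k (j + 1) →
    st x y ≤ C * (∑ i, (S.ch D k j x).sl i x y) * ℓ s(x, y)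
  gain : ∀ x y, min (pathDist G ℓ x y) (dto G ℓ (D.vis k j) x + dto G ℓ (D.vis k j) y) ≤
    K * st x y + (1 + C * K) * (dto G ℓ (D.vis k (j + 1)) x + dto G ℓ (D.vis k (j + 1)) y)

/-- properties of the map of the move `(k, j + 1)` -/
structure IsMove (G : SimpleGraph V) (ℓ : Sym2 V → ℝ) {K : ℝ} (C c c1 : ℝ) (S : Sys G ℓ K)
    (D : Dom V) (k : Fin 3 × Bool) (j : ℕ) (mv : V → V → ℝ) : Prop where
  l1 : IsL1 mv
  zero : ∀ a ∉ D.U, ∀ b ∉ D.U, mv a b = 0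
  vis : ∀ a ∈ D.vis k (j + 1), ∀ b ∈ D.vis k (j + 1), mv a b ≤ C * pathDist G ℓ a b
  alive : ∀ x y, G.Adj x y → x ∉ D.vis k (j + 1) →
    mv x y ≤ C * (∑ i, (S.ch D k j x).sl i x y + 2 ^ (j + 1) * D.sl k x y) * ℓ s(x, y)
  out : ∀ x ∈ D.U, ∀ y ∉ D.U, c * S.N D k j x ≤ mv x y
  pair : ∀ x ∈ D.U, ∀ y ∈ D.U, dto G ℓ D.Uᶜ x + dto G ℓ D.Uᶜ y ≤ c1 * pathDist G ℓ x y →
    c * (S.N D k j x + S.N D k j y) ≤ mv x y

/-- standing hypotheses on the chosen maps -/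
structure Maps (G : SimpleGraph V) (ℓ : Sym2 V → ℝ) {K : ℝ} (C' C c c1 : ℝ) (S : Sys G ℓ K)
    (st mv : Dom V → Fin 3 × Bool → ℕ → V → V → ℝ) : Prop where
  st : ∀ D, S.Good D → ∀ k j, IsStep G ℓ C' S D k j (st D k j)
  mv : ∀ D, S.Good D → ∀ k j, IsMove G ℓ C c c1 S D k j (mv D k j)

end Vale.Agent.P235.LL
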