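import Vale.Agent.P235.LL.Top
import Vale.Agent.P235.H101.Step
import Vale.Agent.P235.H296.RowMove
import Vale.Agent.P235.LL.H86.CostB
import Vale.Agent.P235.LL.H868.Single
import Vale.Agent.P235.H627.RowLin
import Vale.Agent.P235.H276.Pair
import Vale.Agent.P235.LL.H958.All

/-! P235, LL: the process half, complete. -/

namespace Vale.Agent.P235.LL

theorem process : RowProcess :=
  process_of H101.step H296.rowMove H86.rowCost (H868.rowSingle H627.rowLin) H276.rowPair
    H958.rowAll

end Vale.Agent.P235.LL
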