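import Vale.Agent.P235.LL.Basic
import Vale.Agent.P235.LL.Rows

/-! P235, LL: top of the process half. -/

namespace Vale.Agent.P235.LL

open Vale.Agent.P235 Finset

/-- near the two roots the two distance functions separate -/
theorem start_sep {V : Type} [Finite V] {G : SimpleGraph V} {ℓ : Sym2 V → ℝ} (hc : G.Connected)
    (hℓ : ∀ e ∈ G.edgeSet, 0 < ℓ e) (r r' x y : V) :
    1 / 2 * pathDist G ℓ x y ≤ |pathDist G ℓ x r - pathDist G ℓ y r| +
      |pathDist G ℓ x r' - pathDist G ℓ y r'| ∨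
    3 / 4 * pathDist G ℓ x y ≤ dto G ℓ {r, r'} x + dto G ℓ {r, r'} y := by
  have hm := pathDist_isMet hc hℓ
  have hne : ({r, r'} : Set V).Nonempty := ⟨r, by simp⟩
  obtain ⟨a, ha, hxa⟩ := exists_dto (G := G) (ℓ := ℓ) hne x
  obtain ⟨b, hb, hyb⟩ := exists_dto (G := G) (ℓ := ℓ) hne y
  by_cases h : 3 / 4 * pathDist G ℓ x y ≤ dto G ℓ {r, r'} x + dto G ℓ {r, r'} y
  · exact Or.inr h
  left
  rw [not_le, hxa, hyb] at h
  have h0 := pathDist_nonneg hℓ x y
  have key : ∀ p q : V, pathDist G ℓ x p + pathDist G ℓ y q < 3 / 4 * pathDist G ℓ x y →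
      1 / 2 * pathDist G ℓ x y ≤ |pathDist G ℓ x p - pathDist G ℓ y p| +
        |pathDist G ℓ x q - pathDist G ℓ y q| := by
    intro p q hpq
    have t1 := hm.tri x p y
    have t2 := hm.tri x q y
    rw [hm.symm p y] at t1
    rw [hm.symm q y] at t2
    have a1 := neg_abs_le (pathDist G ℓ x p - pathDist G ℓ y p)
    have a2 := le_abs_self (pathDist G ℓ x q - pathDist G ℓ y q)
    linarith
  have same : ∀ p : V, ¬ (pathDist G ℓ x p + pathDist G ℓ y p < 3 / 4 * pathDist G ℓ x y) := by
    intro p hp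
    have t1 := hm.tri x p y
    rw [hm.symm p y] at t1
    linarith
  rcases ha with rfl | ha <;> rcases hb with rfl | hb
  · exact absurd h (same _)
  · rw [Set.mem_singleton_iff] at hb
    subst hb
    exact key _ _ h
  · rw [Set.mem_singleton_iff] at ha
    subst ha
    rw [add_comm (|pathDist G ℓ x b - _|)]
    exact key _ _ h
  · rw [Set.mem_singleton_iff] at ha hb
    subst ha
    subst hb
    exact absurd h (same _)

theorem process_of (hStep : RowStep) (hMove : RowMove) (hCost : RowCost) (hSingle : RowSingle)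
    (hPair : RowPair) (hAll : RowAll) : RowProcess := by
  classical
  obtain ⟨C', hC', hst⟩ := hStep
  obtain ⟨C, c, c1, hC, hc0, hc1, hc14, hmv⟩ := hMove
  obtain ⟨A, hA, hcost⟩ := hCost C' C c c1 hC' hC
  obtain ⟨cs, hcs, hsingle⟩ := hSingle
  have hc2 : 0 < c * cs := mul_pos hc0 hcs
  obtain ⟨c3, hc3, hall⟩ := hAll C' C c c1 (c * cs) hC' hC hc0 hc1 hc14 hc2
  set m : ℝ := min (1 / 2) (min c3 (3 / 4 * (c * cs))) with hm
  have hm0 : 0 < m := lt_min (by norm_num) (lt_min hc3 (by positivity))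
  have hmh : m ≤ 1 / 2 := min_le_left _ _
  have hm3 : m ≤ c3 := (min_le_right _ _).trans (min_le_left _ _)
  have hm2 : m ≤ 3 / 4 * (c * cs) := (min_le_right _ _).trans (min_le_right _ _)
  refine ⟨(A + 2) / m, ?_, ?_⟩
  · rw [le_div_iff₀ hm0]; linarith
  intro V _ G ℓ K hc hℓ hK S r r' hstart
  have hdm := pathDist_isMet hc hℓ
  have hK0 : 0 < K := by linarith
  -- the chosen maps
  have hst' : ∀ (D : Dom V) (k : Fin 3 × Bool) (j : ℕ), ∃ st : V → V → ℝ,
      S.Good D → IsStep G ℓ C' S D k j st := by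
    intro D k j
    by_cases hD : S.Good D
    · obtain ⟨st, h⟩ := hst V G ℓ K hc hℓ hK S D hD k j
      exact ⟨st, fun _ => h⟩
    · exact ⟨0, fun h => absurd h hD⟩
  have hmv' : ∀ (D : Dom V) (k : Fin 3 × Bool) (j : ℕ), ∃ mv : V → V → ℝ,
      S.Good D → IsMove G ℓ C c c1 S D k j mv := by
    intro D k j
    by_cases hD : S.Good D
    · obtain ⟨mv, h⟩ := hmv V G ℓ K hc hℓ hK S D hD k j
      exact ⟨mv, fun _ => h⟩
    · exact ⟨0, fun h => absurd h hD⟩
  choose st hst using hst'
  choose mv hmv using hmv'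
  have M : Maps G ℓ C' C c c1 S st mv :=
    ⟨fun D hD k j => hst D k j hD, fun D hD k j => hmv D k j hD⟩
  -- the start domains
  set R : Set V := {r, r'} with hR
  have hRne : R.Nonempty := ⟨r, by simp [hR]⟩
  have hdom : ∀ W : Set V, ∃ D : Dom V, (∃ x, x ∉ R ∧ W = compSet G R x) →
      S.Good D ∧ D.U = W := by
    intro W
    by_cases hW : ∃ x, x ∉ R ∧ W = compSet G R x
    · obtain ⟨x, hx, rfl⟩ := hW
      have h1 : x ≠ r := fun e => hx (by simp [hR, e])
      have h2 : x ≠ r' := fun e => hx (by simp [hR, e])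
      obtain ⟨D, hD, hU⟩ := hstart x h1 h2
      exact ⟨D, fun _ => ⟨hD, hU⟩⟩
    · exact ⟨⟨∅, fun _ => ∅, fun _ _ => 0, fun _ _ => 0, fun _ _ => 0⟩, fun h => absurd h hW⟩
  choose D0 hD0 using hdom
  set cs0 : Finset (Set V) := (Set.toFinite {W | ∃ x, x ∉ R ∧ W = compSet G R x}).toFinset with hcs0
  have mem_cs : ∀ W, W ∈ cs0 ↔ ∃ x, x ∉ R ∧ W = compSet G R x := by
    intro W; simp [hcs0]
  set n : ℕ := Nat.card V with hn
  have hcard : ∀ D : Dom V, D.U.ncard ≤ n := fun D => by
    rw [hn, ← Set.ncard_univ]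
    exact Set.ncard_le_ncard (Set.subset_univ _) (Set.toFinite _)
  set s0 : V → V → ℝ := fun a b => ∑ W ∈ cs0, S.sig st mv n (D0 W) a b with hs0
  have hs0L : IsL1 s0 := IsL1.sum cs0 (fun W a b => S.sig st mv n (D0 W) a b) fun W hW =>
    M.sig_l1 n _ (hD0 W ((mem_cs W).mp hW)).1
  -- upper bound on edges
  have hup1 : ∀ x y, x ∉ R → (y ∈ R ∨ y ∈ compSet G R x) →
      s0 x y = S.sig st mv n (D0 (compSet G R x)) x y := by
    intro x y hx hy
    rw [hs0]
    show ∑ W ∈ cs0, S.sig st mv n (D0 W) x y = _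
    refine sum_eq_single _ (fun W hW hne => ?_) (fun h => absurd ((mem_cs _).mpr ⟨x, hx, rfl⟩) h)
    obtain ⟨z, hz, rfl⟩ := (mem_cs W).mp hW
    obtain ⟨h1, h2⟩ := hD0 _ ⟨z, hz, rfl⟩
    refine M.sig_zero n _ h1 x ?_ y ?_
    · rw [h2]
      exact fun h => hne (compSet_eq h).symm
    · rw [h2]
      intro h
      rcases hy with hy | hy
      · exact compSet_sub h hy
      · exact hne ((compSet_eq h).symm.trans (compSet_eq hy))
  have hedge : ∀ x y, G.Adj x y → s0 x y ≤ A * ℓ s(x, y) := by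
    have main : ∀ x y, x ∉ R → G.Adj x y → s0 x y ≤ A * ℓ s(x, y) := by
      intro x y hx hxy
      have hy : y ∈ R ∨ y ∈ compSet G R x := by
        by_cases hy : y ∈ R
        · exact Or.inl hy
        · exact Or.inr (compSet_adj (ReachOff.refl hx) hxy hy)
      rw [hup1 x y hx hy]
      exact hcost V G ℓ K hc hℓ hK S st mv M n _ (hD0 _ ⟨x, hx, rfl⟩).1 x y hxy
    intro x y hxy
    by_cases hx : x ∈ R
    · by_cases hy : y ∈ R
      · have : s0 x y = 0 := by
          refine sum_eq_zero fun W hW => ?_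
          obtain ⟨z, hz, rfl⟩ := (mem_cs W).mp hW
          obtain ⟨h1, h2⟩ := hD0 _ ⟨z, hz, rfl⟩
          refine M.sig_zero n _ h1 x ?_ y ?_
          · rw [h2]; exact fun h => compSet_sub h hx
          · rw [h2]; exact fun h => compSet_sub h hy
        rw [this]
        have := hℓ _ (G.mem_edgeSet.mpr hxy)
        nlinarith
      · have := main y x hy hxy.symm
        rw [hs0L.symm x y, Sym2.eq_swap]
        exact this
    · exact main x y hx hxy
  -- lower bound
  have hterm : ∀ z x y, z ∉ R → S.sig st mv n (D0 (compSet G R z)) x y ≤ s0 x y := by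
    intro z x y hz
    exact single_le_sum (f := fun W => S.sig st mv n (D0 W) x y)
      (fun W hW => M.sig_nonneg n (hD0 W ((mem_cs W).mp hW)).1 x y) ((mem_cs _).mpr ⟨z, hz, rfl⟩)
  have hout : ∀ n D, S.Good D → D.U.ncard ≤ n → ∀ x ∈ D.U, ∀ y ∉ D.U,
      c * cs * dto G ℓ D.Uᶜ x ≤ S.sig st mv n D x y := by
    intro n D hD hn x hx y hy
    have h1 := (hPair C' C c c1 hC' hC hc0 hc1 V G ℓ K hc hℓ hK S st mv M n D hD).1 x hx y hy
    have h2 := hsingle V G ℓ K hc hℓ hK S n D hD hn x hx
    have h3 := mul_le_mul_of_nonneg_left h2 hc0.le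
    linarith
  have hin : ∀ n D, S.Good D → D.U.ncard ≤ n → ∀ x ∈ D.U, ∀ y ∈ D.U,
      dto G ℓ D.Uᶜ x + dto G ℓ D.Uᶜ y ≤ c1 * pathDist G ℓ x y →
      c * cs * (dto G ℓ D.Uᶜ x + dto G ℓ D.Uᶜ y) ≤ S.sig st mv n D x y := by
    intro n D hD hn x hx y hy hxy
    have h1 := (hPair C' C c c1 hC' hC hc0 hc1 V G ℓ K hc hℓ hK S st mv M n D hD).2 x hx y hy hxy
    have h2 := hsingle V G ℓ K hc hℓ hK S n D hD hn x hx
    have h2' := hsingle V G ℓ K hc hℓ hK S n D hD hn y hy
    have h3 := mul_le_mul_of_nonneg_left h2 hc0.le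
    have h3' := mul_le_mul_of_nonneg_left h2' hc0.le
    linarith
  have hall' := hall V G ℓ K hc hℓ hK S st mv M fun n D hD hn => ⟨hout n D hD hn, hin n D hD hn⟩
  have hdR : ∀ x, x ∉ R → dto G ℓ (D0 (compSet G R x)).Uᶜ x = dto G ℓ R x := by
    intro x hx
    rw [(hD0 _ ⟨x, hx, rfl⟩).2]
    exact dto_comp hc hℓ hRne (ReachOff.refl hx)
  have hxU : ∀ x, x ∉ R → x ∈ (D0 (compSet G R x)).U := by
    intro x hx
    rw [(hD0 _ ⟨x, hx, rfl⟩).2]
    exact ReachOff.refl hx
  have hlow : ∀ x y, 3 / 4 * pathDist G ℓ x y ≤ dto G ℓ R x + dto G ℓ R y →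
      m * pathDist G ℓ x y ≤ K * s0 x y := by
    have hs0n : ∀ x y, 0 ≤ s0 x y := hs0L.nonneg
    -- `x` outside the roots, `y` not in its component
    have h1 : ∀ x y, x ∉ R → y ∉ compSet G R x → c * cs * dto G ℓ R x ≤
        S.sig st mv n (D0 (compSet G R x)) x y := by
      intro x y hx hy
      have hy' : y ∉ (D0 (compSet G R x)).U := by
        rw [(hD0 _ ⟨x, hx, rfl⟩).2]; exact hy
      have := hout n _ (hD0 _ ⟨x, hx, rfl⟩).1 (hcard _) x (hxU x hx) y hy'
      rwa [hdR x hx] at this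
    have main : ∀ x y, x ∉ R → 3 / 4 * pathDist G ℓ x y ≤ dto G ℓ R x + dto G ℓ R y →
        m * pathDist G ℓ x y ≤ K * s0 x y := by
      intro x y hx hxy
      have hd0 := pathDist_nonneg hℓ x y
      have hmm : m * pathDist G ℓ x y ≤ 3 / 4 * (c * cs) * pathDist G ℓ x y :=
        mul_le_mul_of_nonneg_right hm2 hd0
      by_cases hyR : y ∈ R
      · have e := h1 x y hx (fun h => compSet_sub h hyR)
        have e2 := hterm x x y hx
        rw [dto_zero hc hℓ hyR, add_zero] at hxy
        have e3 := mul_le_mul_of_nonneg_left hxy hc2.le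
        have e4 : s0 x y ≤ K * s0 x y := by nlinarith [hs0n x y]
        linarith
      by_cases hyx : y ∈ compSet G R x
      · have hyU : y ∈ (D0 (compSet G R x)).U := by
          rw [(hD0 _ ⟨x, hx, rfl⟩).2]; exact hyx
        have hdy : dto G ℓ (D0 (compSet G R x)).Uᶜ y = dto G ℓ R y := by
          rw [(hD0 _ ⟨x, hx, rfl⟩).2]
          exact dto_comp hc hℓ hRne hyx
        have e := hall' n _ (hD0 _ ⟨x, hx, rfl⟩).1 (hcard _) x (hxU x hx) y hyU (by
          rw [hdR x hx, hdy]
          have := mul_le_mul_of_nonneg_right hc14 hd0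
          linarith)
        have e2 := mul_le_mul_of_nonneg_left (hterm x x y hx) hK0.le
        have e3 := mul_le_mul_of_nonneg_right hm3 hd0
        linarith
      · have e1 := h1 x y hx hyx
        have hxy' : x ∉ compSet G R y := fun h => hyx (by
          rw [compSet_eq h]; exact ReachOff.refl hyR)
        have e2 := h1 y x hyR hxy'
        have hne' : compSet G R x ≠ compSet G R y := by
          intro e
          apply hyx
          rw [e]
          exact ReachOff.refl hyR
        have hsub : ({compSet G R x, compSet G R y} : Finset (Set V)) ⊆ cs0 := by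
          intro W hW
          rw [mem_insert, mem_singleton] at hW
          rcases hW with rfl | rfl
          · exact (mem_cs _).mpr ⟨x, hx, rfl⟩
          · exact (mem_cs _).mpr ⟨y, hyR, rfl⟩
        have e3 := sum_le_sum_of_subset_of_nonneg hsub
          (f := fun W => S.sig st mv n (D0 W) x y)
          (fun W hW _ => M.sig_nonneg n (hD0 W ((mem_cs W).mp hW)).1 x y)
        rw [sum_pair hne'] at e3
        have e3' : S.sig st mv n (D0 (compSet G R x)) x y +
            S.sig st mv n (D0 (compSet G R y)) x y ≤ s0 x y := e3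
        rw [M.sig_symm n (hD0 _ ⟨y, hyR, rfl⟩).1 y x] at e2
        have e4 := mul_le_mul_of_nonneg_left hxy hc2.le
        have e5 : s0 x y ≤ K * s0 x y := by nlinarith [hs0n x y]
        linarith
    intro x y hxy
    by_cases hx : x ∈ R
    · by_cases hy : y ∈ R
      · rw [dto_zero hc hℓ hx, dto_zero hc hℓ hy, add_zero] at hxy
        have hd0 := pathDist_nonneg hℓ x y
        have : pathDist G ℓ x y = 0 := by linarith
        rw [this, mul_zero]
        exact mul_nonneg hK0.le (hs0n x y)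
      · rw [hdm.symm x y, hs0L.symm x y]
        refine main y x hy ?_
        rw [hdm.symm y x]
        linarith
    · exact main x y hx hxy
  -- the semimetric
  set t0 : V → V → ℝ := fun x y => s0 x y + (|pathDist G ℓ x r - pathDist G ℓ y r| +
    |pathDist G ℓ x r' - pathDist G ℓ y r'|) with ht0
  have ht0L : IsL1 t0 := hs0L.add ((isL1_line fun x => pathDist G ℓ x r).add
    (isL1_line fun x => pathDist G ℓ x r'))
  have hlow' : ∀ x y, m * pathDist G ℓ x y ≤ K * t0 x y := by
    intro x y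
    have hd0 := pathDist_nonneg hℓ x y
    have hs := hs0L.nonneg x y
    have ha : 0 ≤ |pathDist G ℓ x r - pathDist G ℓ y r| +
        |pathDist G ℓ x r' - pathDist G ℓ y r'| := by positivity
    have e0 : t0 x y = s0 x y + (|pathDist G ℓ x r - pathDist G ℓ y r| +
        |pathDist G ℓ x r' - pathDist G ℓ y r'|) := rfl
    rcases start_sep hc hℓ r r' x y with h | h
    · have h1 := mul_le_mul_of_nonneg_right hmh hd0
      have h2 : t0 x y ≤ K * t0 x y := by nlinarith
      linarith
    · have h1 := hlow x y h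
      rw [e0, mul_add]
      have := mul_nonneg hK0.le ha
      linarith
  have hedge' : ∀ x y, G.Adj x y → t0 x y ≤ (A + 2) * ℓ s(x, y) := by
    intro x y hxy
    have h1 := hedge x y hxy
    have h2 : ∀ p, |pathDist G ℓ x p - pathDist G ℓ y p| ≤ ℓ s(x, y) := by
      intro p
      have t1 := hdm.tri x y p
      have t2 := hdm.tri y x p
      rw [hdm.symm y x] at t2
      have t3 := pathDist_adj hℓ hxy
      rw [abs_le]
      constructor <;> linarith
    have e0 : t0 x y = s0 x y + (|pathDist G ℓ x r - pathDist G ℓ y r| +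
        |pathDist G ℓ x r' - pathDist G ℓ y r'|) := rfl
    have := h2 r
    have := h2 r'
    linarith
  have hfin : IsL1 (fun x y => K / m * t0 x y) := ht0L.smul (by positivity)
  refine hfin.embeds (fun x y => ?_) (fun x y => ?_)
  · rw [div_mul_eq_mul_div, le_div_iff₀ hm0]
    linarith [hlow' x y]
  · have := pathDist_semi (ρ := fun x y => K / m * t0 x y) (K := (A + 2) / m * K) hc
      (by positivity) (fun x => hfin.self x) (fun x y z => hfin.tri x y z) (fun u v huv => by
        have := mul_le_mul_of_nonneg_left (hedge' u v huv) (show 0 ≤ K / m by positivity)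
        calc K / m * t0 u v ≤ K / m * ((A + 2) * ℓ s(u, v)) := this
          _ = _ := by ring) x y
    exact this

end Vale.Agent.P235.LL
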